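import Vale.Agent.P285.H560.Pairs
import Vale.Agent.P223.H959.Hsc
import Vale.Agent.P223.H959.All
import Vale.Agent.P223.H959.L2
import Vale.Agent.P223.H209.Leb
import Vale.Agent.P223.H959.PosAdj
import Vale.Agent.P272.TOP.Q1

/-!
# P270: generalised pairs `(X, B + M)` on compact hyperbolic Kähler manifolds, and on other classes

1. Let `X` be a compact hyperbolic Kähler manifold (no entire curves), of any dimension. Then `K_X`
   is ample; `K_X + M` is positive for every nef class `M`; and for every effective `ℚ`-divisor `B`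
   and every nef class `M` such that `D = K_X + B + M` is nef, `D^n ≥ K_X^n > 0`, so `D` is nef and
   big.
2. The last statement also holds if `X` is a compact Kähler manifold with a Hermitian metric of
   nonpositive holomorphic sectional curvature in one of four cases.
-/

open scoped Manifold ContDiff ComplexOrder

namespace Vale.Agent.Results.P270.HyperbolicPairs

open Vale.Agent.P272.K Vale.Agent.P285.H560
open Vale.Agent.P272.KOD (AmpleCanonical)
open Vale.Agent.P223.K (sv)
open Vale.Agent.P223.H959 (realAtlas IsClosed11 NefForm NefAdjoint)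

/-- `K_X + B + M` is big for every effective `ℚ`-divisor `B` and every nef class `M` such that
`K_X + B + M` is nef: for every smooth Hermitian metric `φ` on `K_X`, every form `b₁` in the class
of `B` and every form `b₂` in the class `M`, the integrals `I₀ = ∫ (i∂∂̄φ)^n` and
`I = ∫ (i∂∂̄φ + b₁ + b₂)^n` (divided by `n!` times a constant) satisfy `0 < I₀ ≤ I`. -/
def AllGeneralisedPairsBig {n : ℕ} {X : Type} [TopologicalSpace X] [ChartedSpace (Cm n) X]
    (w : Chart n X → Cm n → Matrix (Fin n) (Fin n) ℂ) : Prop :=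
  ∀ (m : ℕ) (b₁ b₂ : Chart n X → Cm n → Matrix (Fin n) (Fin n) ℂ) (s : Chart n X → Cm n → ℂ)
    (ψ : Chart n X → Cm n → ℝ), IsClosed11 b₁ → IsDivisorForm m b₁ s ψ → IsClosed11 b₂ →
    NefForm w b₂ → NefAdjoint w (fun e z => b₁ e z + b₂ e z) →
    ∀ φ : Chart n X → Cm n → ℝ, IsCanonicalMetric φ →
      ∃ I₀ I : ℝ, 0 < I₀ ∧ I₀ ≤ I ∧ IsIntegral (fun e z => (cHess (φ e) z).det.re) I₀ ∧
        IsIntegral (fun e z => (cHess (φ e) z + (b₁ e z + b₂ e z)).det.re) I

theorem result (n : ℕ) (hn : 1 ≤ n) (X : Type) [TopologicalSpace X] [T2Space X] [CompactSpace X]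
    [ConnectedSpace X] [ChartedSpace (Cm n) X] [IsManifold 𝓘(ℂ, Cm n) ω X]
    (w : Chart n X → Cm n → Matrix (Fin n) (Fin n) ℂ) (hw : IsKahler w) :
    (BrodyHyperbolic n X → AmpleCanonical n X ∧
      (∀ b : Chart n X → Cm n → Matrix (Fin n) (Fin n) ℂ, IsClosed11 b → NefForm w b →
        ∃ φ : Chart n X → Cm n → ℝ, IsCanonicalMetric φ ∧
          ∀ e x, At e x → (cHess (φ e) (e x) + b e (e x)).PosDef) ∧
      AllGeneralisedPairsBig w) ∧
    ∀ h : Chart n X → Cm n → Matrix (Fin n) (Fin n) ℂ, IsHermitian h →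
      Vale.Agent.P272.K.NonposHSC h →
      ((∃ φ : Chart n X → Cm n → ℝ, IsCanonicalMetric φ ∧
          ∃ I : ℝ, 0 < I ∧ IsIntegral (fun e z => (cHess (φ e) z).det.re) I) ∨
        QuasiNegHSC h ∨ (∀ f : ℂ → X, ¬ IsFlatLine h f) ∨
        (2 ≤ n ∧ sv (realAtlas n X) ≠ 0)) → AllGeneralisedPairsBig w := by
  constructor
  · intro hX
    have hpos := Vale.Agent.P272.TOP.xam n hn X hX w hw
    refine ⟨Vale.Agent.P272.TOP.q1 n hn X hX w hw, fun b _ hbn => ?_, ?_⟩
    · obtain ⟨φ, hφ, hp⟩ := hpos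
      exact Vale.Agent.P223.H959.pos_adjoint hw hbn hφ hp
    · intro m b₁ b₂ s ψ h1 h2 h3 h4 h5 φ hφ
      exact pairs hw hpos h1 h2 h3 h4 h5 hφ
  · intro h hh hneg hcase m b₁ b₂ s ψ h1 h2 h3 h4 h5 φ hφ
    refine pairs hw (((Vale.Agent.P223.H959.hsc_adjoint Vale.Agent.P223.H959.blocks
      (Vale.Agent.P223.H959.specTot_of Vale.Agent.P223.H209.specLeb) hn X w h hw hh hneg).2
        ?_).1) h1 h2 h3 h4 h5 hφ
    rcases hcase with h | h | h | h
    · exact Or.inl h
    · exact Or.inr (Or.inl h)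
    · exact Or.inr (Or.inr (Or.inl h))
    · exact Or.inr (Or.inr (Or.inr (Or.inr h)))

end Vale.Agent.Results.P270.HyperbolicPairs
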