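import Vale.Agent.P285.OPD.Final

/-!
# P270: pairs on manifolds with one nondegenerate point

Let `X` be a compact Kähler manifold, `D` an effective `ℚ`-divisor, `M` a nef class such that
`K_X + D + M` is nef. If the Kobayashi-Royden metric of `X` is nondegenerate on a nonempty open set
(or at one point outside `D`, if the potentials of `M` are bounded there), in particular if `X` has
a holomorphic map to a compact hyperbolic manifold which is immersive at some point, then
`(K_X + D + M)^n > 0`.
-/

namespace Vale.Agent.Results.P270.OnePointPairs

open Vale.Agent.P285.OPD

theorem result : OnePointPairBig ∧ ImmersionPairBig := ⟨onePointPairBig, immersionPairBig⟩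

end Vale.Agent.Results.P270.OnePointPairs
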